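import Vale.Agent.P088.R2.H808.A.Ud

/-!
# Zone A: the derivatives of `u`, `f`, `G`, `N`, `W`
-/

open Set Filter
open scoped ContDiff Topology

noncomputable section

namespace Vale.Agent.P088.R2.H808.A

open Vale.Agent.P088.LR
open Vale.Agent.P088.HY hiding dd
open Vale.Agent.P088.R2.H31.EP
open Vale.Agent.P088.R2.H464.Cu (mid)
open Vale.Agent.P088.R2.H747.A
open Vale.Agent.P088.R2.H313.EP (MuOk muG)
open Vale.Agent.P088.R2.H313.Mu (b1)
open Vale.Agent.P088.R2.H768.A (Sl0 Sl1 Sl2 Dc)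

variable {n : ℕ} {q : Cst} {d : Pk n} {z : VV n}

/-! ## `u` -/

/-- The constant of `u`. -/
def kU (n : ℕ) (q : Cst) : ℝ := 2 * cl n q + 51 * chX + 1

theorem kU0 (n : ℕ) (q : Cst) : 0 < kU n q := by
  have := cl0 n q
  have := chX0
  unfold kU
  positivity

theorem J_u (C : Cq n q) (h : PkOk q d) (L : Lo q d z) : J2 (dr n) (d.u q) 2 (kU n q) z := by
  have hn := n_pos L.Q0
  have c0 := cl0 n q
  have X0 := chX0
  have s0 : 0 < q.R⁻¹ := inv_pos.2 C.th.R0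
  have s1 : q.R⁻¹ ≤ 1 := inv_le_one_of_one_le₀ C.ic.R1
  have hM := C.mu d h
  obtain ⟨β, hβ⟩ : ∃ β, β = mG * b1 1 q.M₀ := ⟨_, rfl⟩
  have b0 := hM.b
  have β0 : 0 < β := by rw [hβ]; exact mul_pos mG0 b0
  have hβ1 : 4 * (6 * chX + 1) * β ≤ 1 := by
    have := C.mμ
    rw [hβ]
    linarith
  have hβ2 : β ≤ 1 / 4 := by nlinarith [mul_pos X0 β0]
  have mj : ∀ j, j ≤ 2 → muG j * b1 1 q.M₀ ≤ β := by
    intro j hj
    rw [hβ]
    refine mul_le_mul_of_nonneg_right ?_ b0.le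
    have := H313.EP.muG0 0
    have := H313.EP.muG0 1
    have := H313.EP.muG0 2
    unfold mG
    interval_cases j <;> linarith
  have m0 : ∀ s, |d.μc q s| ≤ β := fun s => by
    have := hM.al 0 s
    rw [iteratedDeriv_zero] at this
    exact this.trans (mj 0 (by norm_num))
  have m1 : ∀ s, |deriv (d.μc q) s| ≤ β := fun s => by
    have := hM.al 1 s
    rw [iteratedDeriv_one] at this
    exact this.trans (mj 1 (by norm_num))
  have m2 : ∀ s, |deriv (deriv (d.μc q)) s| ≤ β := fun s => by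
    have := hM.al 2 s
    rw [iteratedDeriv_succ, iteratedDeriv_one] at this
    exact this.trans (mj 2 (by norm_num))
  -- the two levels
  have a1 := J2.fs (P2_l C h hn L.g1) (P2_l C h hn L.g2) (by norm_num) (by positivity)
  -- the correction
  have a2 := J2.mid (P2_l C h hn L.gm)
  have a3 := a2.comp (φ := d.μc q) (hM.sm.contDiffAt.of_le (by norm_cast)) (m1 _) (m2 _)
  have a4 : J2 (dr n) (fun w => d.χ (d.r2 w)) (6 * chX) (39 * chX) z := by
    by_cases h5 : d.r2 z < 5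
    · have r2n : 0 ≤ d.r2 z := (Real.sqrt_pos.1 (L.r00 C)).le
      obtain ⟨x1, x2⟩ := chX_bd (s := d.r2 z) ⟨r2n, h5.le⟩
      have hχ : d.χ = chi0 := h.eχ
      rw [← hχ] at x1 x2
      have a5 := (J_r2 C h L).comp (φ := d.χ) (h.χs.contDiffAt.of_le (by norm_cast)) x1 x2
      have hQ : qn z ≤ 23 / 10 := by
        refine L.Qr.trans ?_
        have : rr d z ≤ 2237 / 1000 := by
          refine Real.sqrt_le_iff.2 ⟨by norm_num, ?_⟩
          linarith
        linarith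
      have hQ0 := L.Q0
      refine a5.mono ?_ ?_
      · nlinarith
      · have h6 : (5 / 2 * qn z) ^ 2 ≤ 36 := by nlinarith
        nlinarith
    · have h6 : 4 < d.r2 z := by linarith [not_lt.1 h5]
      have hc : ∀ᶠ w in 𝓝 z, 4 < d.r2 w :=
        (J_r2 C h L).sm.continuousAt.eventually (lt_mem_nhds h6)
      have e : (fun w => d.χ (d.r2 w)) =ᶠ[𝓝 z] fun _ => 0 := by
        filter_upwards [hc] with w hw using h.χ0 _ hw.le
      exact ((J2.const (dr n) 0 z).congr e).mono (by positivity) (by positivity)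
  have v4 : |d.χ (d.r2 z)| ≤ 1 := by
    rw [abs_of_nonneg (h.χb _).1]
    exact (h.χb _).2
  have a6 := (a4.mul a3 v4 (m0 (d.l (mid z)))).cmul 2
  have a7 := a1.add a6
  have e : d.u q = fun w => d.l w.1 + d.l w.2 + 2 * (d.χ (d.r2 w) * d.μc q (d.l (mid w))) := rfl
  rw [e]
  refine a7.mono ?_ ?_
  · rw [abs_two]
    nlinarith
  · rw [abs_two]
    unfold kU
    have h7 : cl n q * q.R⁻¹ ≤ cl n q := mul_le_of_le_one_right c0.le s1
    have h8 : 0 ≤ cl n q * q.R⁻¹ := by positivity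
    have h9 : β * (cl n q * q.R⁻¹) ≤ cl n q := by nlinarith
    have h10 : β * chX ≤ chX / 4 := by nlinarith
    have h11 : (1 / 2 * (1001 / 1000 : ℝ)) ^ 2 ≤ 1 := by norm_num
    nlinarith

/-! ## `log S(r)` -/

theorem kS_ex (c₀ : ℝ) : ∃ K : ℝ, 0 < K ∧ (0 < c₀ → ∀ q : Cst, 0 < q.e₁ → q.e₁ ≤ 1 →
    ∀ r, c₀ / 2 ≤ r → Sl1 q r ≤ K ∧ |Sl2 q r| ≤ K) := by
  by_cases hc : 0 < c₀
  · obtain ⟨K, hK, h⟩ := H768.A.Sl_bd (c₀ := c₀ / 2) (by linarith)
    exact ⟨K, hK, fun _ => h⟩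
  · exact ⟨1, one_pos, fun h => absurd h hc⟩

/-- The constant of `log S`. -/
def kS (q : Cst) : ℝ := (kS_ex q.c₀).choose

theorem kS0 (q : Cst) : 0 < kS q := (kS_ex q.c₀).choose_spec.1

theorem J_lS (C : Cq n q) (h : PkOk q d) (L : Lo q d z) :
    J2 (dr n) (fun w => lS q (rr d w)) (2 * kS q) (4 * kS q + 8 * kS q / q.c₀) z := by
  have r0 := L.r00 C
  have e0 := C.cn.e0
  have e1 : q.e₁ ≤ 1 := C.cn.e1.trans (by norm_num)
  obtain ⟨s1, s2⟩ := (kS_ex q.c₀).choose_spec.2 C.th.c0 q e0 e1 (rr d z) L.r0.le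
  have k0 := kS0 q
  have s1' : |Sl1 q (rr d z)| ≤ kS q := by
    rw [abs_of_pos (H768.A.Sl1_pos e0 _)]; exact s1
  have s2' : |Sl2 q (rr d z)| ≤ kS q := s2
  have h1 := (J_rr C h L).comp' (φ := lS q) (φ₁ := Sl1 q) (φ₂ := Sl2 q) isOpen_Ioi
    (mem_Ioi.2 r0) ((H768.A.sm_Sl0 e0).of_le (by norm_cast))
    (fun t ht => H768.A.hasDerivAt_Sl0 e0 ht) (fun t ht => H768.A.hasDerivAt_Sl1 e0 ht) s1' s2'
  refine h1.mono (le_of_eq (by ring)) ?_
  have h2 := L.ir C
  have h3 : 4 / rr d z ≤ 8 / q.c₀ := by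
    have e : 4 / rr d z = 4 * (1 / rr d z) := by ring
    have e2 : 8 / q.c₀ = 4 * (2 / q.c₀) := by ring
    rw [e, e2]
    linarith
  have h4 : kS q * (4 / rr d z) ≤ 8 * kS q / q.c₀ := by
    have e2 : 8 * kS q / q.c₀ = kS q * (8 / q.c₀) := by ring
    rw [e2]
    exact mul_le_mul_of_nonneg_left h3 k0.le
  have h5 : kS q * 2 ^ 2 = 4 * kS q := by ring
  rw [h5]
  linarith

/-! ## `f`, `G` -/

/-- The constant of `f` and `r`. -/
def kF (n : ℕ) (q : Cst) : ℝ := 4 + kU n q + 6 * kS q + 8 * kS q / q.c₀ + 8 / q.c₀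

theorem kF0 (C : Cq n q) : 4 ≤ kF n q := by
  have := kU0 n q
  have := kS0 q
  have := C.th.c0
  unfold kF
  have : 0 < 8 * kS q / q.c₀ := by positivity
  have : 0 < 8 / q.c₀ := by positivity
  linarith

theorem J_ff (C : Cq n q) (h : PkOk q d) (L : Lo q d z) :
    J2 (dr n) (ff q d) (kF n q - 2) (kF n q - 8 / q.c₀) z := by
  refine ((J_u C h L).add (J_lS C h L)).mono ?_ ?_
  · have := kU0 n q
    have := kS0 q
    have := C.th.c0
    unfold kF
    have : 0 < 8 * kS q / q.c₀ := by positivity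
    have : 0 < 8 / q.c₀ := by positivity
    linarith
  · have := kU0 n q
    have := kS0 q
    unfold kF
    linarith

/-- A bound of the constants of the slow exponential. -/
def sB : ℝ := |slB 0 1| + |slB 2 0| + |slB 1 1| + |slB 0 2| + |slB 3 0| + |slB 2 1| + |slB 1 2| + 1

theorem sB1 : 1 ≤ sB := by
  unfold sB
  have := abs_nonneg (slB 0 1)
  have := abs_nonneg (slB 2 0)
  have := abs_nonneg (slB 1 1)
  have := abs_nonneg (slB 0 2)
  have := abs_nonneg (slB 3 0)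
  have := abs_nonneg (slB 2 1)
  have := abs_nonneg (slB 1 2)
  linarith

theorem GG_pos (C : Cq n q) (h : PkOk q d) (L : Lo q d z) : 0 < GG q d z :=
  h.sl.G_pos _ (L.r00 C)

theorem D_bd (C : Cq n q) (h : PkOk q d) (L : Lo q d z) :
    |q.D 1 0 (ff q d z, rr d z)| ≤ sB * GG q d z ∧ |q.D 0 1 (ff q d z, rr d z)| ≤ sB * GG q d z ∧
    |q.D 2 0 (ff q d z, rr d z)| ≤ sB * GG q d z ∧ |q.D 1 1 (ff q d z, rr d z)| ≤ sB * GG q d z ∧
    |q.D 0 2 (ff q d z, rr d z)| ≤ sB * GG q d z ∧ |q.D 3 0 (ff q d z, rr d z)| ≤ sB * GG q d z ∧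
    |q.D 2 1 (ff q d z, rr d z)| ≤ sB * GG q d z ∧
    |q.D 1 2 (ff q d z, rr d z)| ≤ sB * GG q d z := by
  have r0 := L.r00 C
  have G0 := GG_pos C h L
  have k : ∀ i j : ℕ, 1 ≤ i + j → |slB i j| ≤ sB →
      |q.D i j (ff q d z, rr d z)| ≤ sB * GG q d z := by
    intro i j hij hs
    exact (H768.A.D_le h r0 i j hij).trans (mul_le_mul_of_nonneg_right hs G0.le)
  have a01 := abs_nonneg (slB 0 1)
  have a20 := abs_nonneg (slB 2 0)
  have a11 := abs_nonneg (slB 1 1)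
  have a02 := abs_nonneg (slB 0 2)
  have a30 := abs_nonneg (slB 3 0)
  have a21 := abs_nonneg (slB 2 1)
  have a12 := abs_nonneg (slB 1 2)
  refine ⟨?_, k 0 1 (by norm_num) ?_, k 2 0 (by norm_num) ?_, k 1 1 (by norm_num) ?_,
    k 0 2 (by norm_num) ?_, k 3 0 (by norm_num) ?_, k 2 1 (by norm_num) ?_,
    k 1 2 (by norm_num) ?_⟩
  · have e : q.D 1 0 (ff q d z, rr d z) = GG q d z := rfl
    rw [e, abs_of_pos G0]
    exact le_mul_of_one_le_left G0.le sB1
  all_goals unfold sB; linarith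

/-- `G`. -/
theorem J_G (C : Cq n q) (h : PkOk q d) (L : Lo q d z) :
    J2 (dr n) (GG q d) (sB * kF n q * GG q d z)
      ((sB * kF n q ^ 2 + sB * kF n q) * GG q d z) z := by
  have r0 := L.r00 C
  have hc := C.th.c0
  obtain ⟨-, -, d20, d11, -, d30, d21, d12⟩ := D_bd C h L
  have h1 := J2.two (H := q.D 1 0) (H₁ := q.D 2 0) (H₂ := q.D 1 1) (Ω := {w | 0 < w.2})
    (isOpen_lt continuous_const continuous_snd) (J_ff C h L) (J_rr C h L) r0
    ((h.sl.sm 1 0).of_le (by norm_cast)) (fun w hw => h.sl.hd 1 0 w hw) (h.sl.hd 2 0 _ r0)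
    (h.sl.hd 1 1 _ r0) d20 d11 d30 d21 d21 d12
  have G0 := GG_pos C h L
  have s1 := sB1
  have F4 := kF0 C
  have sG : 0 ≤ sB * GG q d z := by positivity
  have h4 : 4 / rr d z ≤ 8 / q.c₀ := by
    have h2 := L.ir C
    have e : 4 / rr d z = 4 * (1 / rr d z) := by ring
    have e2 : 8 / q.c₀ = 4 * (2 / q.c₀) := by ring
    rw [e, e2]
    linarith
  refine h1.mono (le_of_eq (by ring)) ?_
  have e1 : kF n q - 2 + 2 = kF n q := by ring
  rw [e1]
  have h5 : kF n q - 8 / q.c₀ + 4 / rr d z ≤ kF n q := by linarith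
  have h6 := mul_le_mul_of_nonneg_left h5 sG
  linarith

/-- `Ψ(f, r)`. -/
theorem J_Psi (C : Cq n q) (h : PkOk q d) (L : Lo q d z) :
    J2 (dr n) (fun w => q.D 0 0 (ff q d w, rr d w)) (sB * kF n q * GG q d z)
      ((sB * kF n q ^ 2 + sB * kF n q) * GG q d z) z := by
  have r0 := L.r00 C
  have hc := C.th.c0
  obtain ⟨d10, d01, d20, d11, d02, -, -, -⟩ := D_bd C h L
  have h1 := J2.two (H := q.D 0 0) (H₁ := q.D 1 0) (H₂ := q.D 0 1) (Ω := {w | 0 < w.2})
    (isOpen_lt continuous_const continuous_snd) (J_ff C h L) (J_rr C h L) r0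
    ((h.sl.sm 0 0).of_le (by norm_cast)) (fun w hw => h.sl.hd 0 0 w hw) (h.sl.hd 1 0 _ r0)
    (h.sl.hd 0 1 _ r0) d10 d01 d20 d11 d11 d02
  have G0 := GG_pos C h L
  have s1 := sB1
  have F4 := kF0 C
  have sG : 0 ≤ sB * GG q d z := by positivity
  have h4 : 4 / rr d z ≤ 8 / q.c₀ := by
    have h2 := L.ir C
    have e : 4 / rr d z = 4 * (1 / rr d z) := by ring
    have e2 : 8 / q.c₀ = 4 * (2 / q.c₀) := by ring
    rw [e, e2]
    linarith
  refine h1.mono (le_of_eq (by ring)) ?_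
  have e1 : kF n q - 2 + 2 = kF n q := by ring
  rw [e1]
  have h5 : kF n q - 8 / q.c₀ + 4 / rr d z ≤ kF n q := by linarith
  have h6 := mul_le_mul_of_nonneg_left h5 sG
  linarith

/-! ## `N`, `W` -/

theorem N_pos (C : Cq n q) (h : PkOk q d) (z : VV n) : 0 < d.N q z := by
  have h1 : deriv d.Φ₁ (d.u q z) ≤ deriv d.Φ (d.u q z) := h.top.l1 (d.u q z)
  have h2 := h.ph.isΦ.n1 (d.u q z)
  have h3 := C.th.M1
  show 0 < deriv d.Φ (d.u q z)
  linarith

theorem K_bd (C : Cq n q) (h : PkOk q d) (L : Lo q d z) :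
    |deriv (deriv d.Φ) (d.u q z)| ≤ 21 / 10 * d.N q z := by
  rw [abs_of_pos (h.top.k0 _)]
  have h1 := h.top.k1 (d.u q z) L.ua.le
  have h2 := N_pos C h z
  have h3 : (2 + 1 / 20 : ℝ) * d.N q z ≤ 21 / 10 * d.N q z := by nlinarith
  exact h1.trans h3

theorem dN_bd (C : Cq n q) (h : PkOk q d) (L : Lo q d z) (a : Fin n ⊕ Fin n) :
    DifferentiableAt ℝ (d.N q) z ∧ |dv (dr n a) (d.N q) z| ≤ 42 / 10 * d.N q z := by
  have sΦ1 : ContDiff ℝ ∞ (deriv d.Φ) := (contDiff_infty_iff_deriv.1 h.ok.Φs).2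
  have hd : DifferentiableAt ℝ (deriv d.Φ) (d.u q z) :=
    (sΦ1.differentiable (by norm_num)) _
  have J := J_u C h L
  refine ⟨DifferentiableAt.comp z hd (diff2 J.sm), ?_⟩
  have h1 : dv (dr n a) (d.N q) z = deriv (deriv d.Φ) (d.u q z) * dv (dr n a) (d.u q) z :=
    dv_comp (φ := deriv d.Φ) _ hd (diff2 J.sm)
  rw [h1, abs_mul]
  have h2 := mul_le_mul (K_bd C h L) (J.d1 a) (abs_nonneg _)
    (mul_nonneg (by norm_num) (N_pos C h z).le)
  linarith

theorem J_Phi (C : Cq n q) (h : PkOk q d) (L : Lo q d z) :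
    J2 (dr n) (fun w => d.Φ (d.u q w)) (2 * d.N q z) ((9 + kU n q) * d.N q z) z := by
  have N0 := N_pos C h z
  have h1 := (J_u C h L).comp (φ := d.Φ) (h.ok.Φs.contDiffAt.of_le (by norm_cast))
    (le_of_eq (abs_of_pos N0)) (K_bd C h L)
  refine h1.mono (le_of_eq ?_) ?_
  · show d.N q z * 2 = 2 * d.N q z
    ring
  · show 21 / 10 * d.N q z * 2 ^ 2 + d.N q z * kU n q ≤ (9 + kU n q) * d.N q z
    nlinarith

/-- The constant of `W`. -/
def kW (n : ℕ) (q : Cst) : ℝ := 9 + kU n q + (sB * kF n q ^ 2 + sB * kF n q)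

theorem J_W (C : Cq n q) (h : PkOk q d) (L : Lo q d z) :
    J2 (dr n) (d.W q) (kW n q * NG q d z) (kW n q * NG q d z) z := by
  have G0 := GG_pos C h L
  have N0 := N_pos C h z
  have F4 := kF0 C
  have s1 := sB1
  have U0 := kU0 n q
  have hl : Continuous d.l := h.lev.sm.continuous
  have hr : ∀ᶠ w in 𝓝 z, 0 < d.r2 w :=
    (J_r2 C h L).sm.continuousAt.eventually (lt_mem_nhds (Real.sqrt_pos.1 (L.r00 C)))
  have e : d.W q =ᶠ[𝓝 z] fun w => d.Φ (d.u q w) + q.D 0 0 (ff q d w, rr d w) := by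
    filter_upwards [hr, (isOpen_lt (hl.comp continuous_fst) continuous_const).mem_nhds L.l1,
      (isOpen_lt (hl.comp continuous_snd) continuous_const).mem_nhds L.l2] with w a b c
    exact H768.A.W_eq h a C.th.R0.le (le_of_lt b) (le_of_lt c)
  have sF : 0 ≤ sB * kF n q := by positivity
  have sF2 : sB * kF n q ≤ sB * kF n q ^ 2 := by nlinarith
  refine (((J_Phi C h L).add (J_Psi C h L)).congr e).mono ?_ ?_
  · unfold kW NG
    nlinarith [mul_nonneg sF G0.le, mul_nonneg sF N0.le, mul_pos U0 N0, mul_pos U0 G0,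
      mul_le_mul_of_nonneg_right sF2 G0.le, mul_le_mul_of_nonneg_right sF2 N0.le]
  · unfold kW NG
    nlinarith [mul_nonneg sF G0.le, mul_nonneg sF N0.le, mul_pos U0 N0, mul_pos U0 G0,
      mul_le_mul_of_nonneg_right sF2 G0.le, mul_le_mul_of_nonneg_right sF2 N0.le]

end Vale.Agent.P088.R2.H808.A
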