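import Vale.Agent.P088.R2.H808.A.Wz

/-!
# Zone A: the row `RowSym`
-/

open Set Filter
open scoped ContDiff Topology

noncomputable section

namespace Vale.Agent.P088.R2.H808.A

open Vale.Agent.P088.LR
open Vale.Agent.P088.HY hiding dd
open Vale.Agent.P088.R2.H961.GW
open Vale.Agent.P088.R2.H31.EP
open Vale.Agent.P088.R2.H747.A

variable {n : ℕ} {q : Cst} {d : Pk n} {z : VV n}

theorem sxD (d : Pk n) (i : Fin n) (f : VV n → ℝ) : d.sx.D i f = dv (dr n (Sum.inl i)) f := by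
  funext w
  show (1 : ℝ) * _ = _
  rw [one_mul]
  rfl

theorem syD (d : Pk n) (i : Fin n) (f : VV n → ℝ) : d.sy.D i f = dv (dr n (Sum.inr i)) f := by
  funext w
  show (1 : ℝ) * _ = _
  rw [one_mul]
  rfl

theorem Bd_of (d : Pk n) {f : VV n → ℝ} {b₁ b₂ : ℝ} (J : J2 (dr n) f b₁ b₂ z) :
    Bd d.sx d.sy f b₁ b₂ z := by
  refine ⟨fun i => ?_, fun i => ?_, fun i j => ?_, fun i j => ?_, fun i j => ?_, fun i j => ?_⟩
  · rw [sxD]; exact J.d1 _
  · rw [syD]; exact J.d1 _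
  · rw [sxD, sxD]; exact J.d2 _ _
  · rw [sxD, syD]; exact J.d2 _ _
  · rw [syD, sxD]; exact J.d2 _ _
  · rw [syD, syD]; exact J.d2 _ _

/-! ## The tensors -/

theorem s_bd {s : MF n} {ε R : ℝ} (hs : H657.W.TR 12 ε R s) (e0 : 0 ≤ ε) (e1 : ε ≤ 1) (R1 : 1 ≤ R)
    (x : V n) (i j : Fin n) : |s x i j| ≤ 2 ∧ P2 (fun x => s x i j) 1 1 x := by
  have R0 : 0 < R := by linarith
  have i0 : 0 < R⁻¹ := inv_pos.2 R0
  have i1 : R⁻¹ ≤ 1 := inv_le_one_of_one_le₀ R1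
  have h0 : |s x i j - (1 : Matrix (Fin n) (Fin n) ℝ) i j| ≤ ε := by
    simpa using hs.cl i j 0 (by norm_num) x
  have h1 : |(1 : Matrix (Fin n) (Fin n) ℝ) i j| ≤ 1 := by
    rw [Matrix.one_apply]
    split_ifs <;> simp
  have h2 := hs.cl i j 1 (by norm_num) x
  have h3 := hs.cl i j 2 (by norm_num) x
  have k1 : ε * R⁻¹ ^ 1 ≤ 1 := by rw [pow_one]; nlinarith
  have k2 : ε * R⁻¹ ^ 2 ≤ 1 := by nlinarith [mul_nonneg e0 i0.le]
  have P := P2.of_jet (ψ := fun x => s x i j - (1 : Matrix (Fin n) (Fin n) ℝ) i j)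
    ((hs.sm i j).sub contDiff_const) (h2.trans k1) (h3.trans k2)
  have e : ∀ k, pd k (fun x => s x i j - (1 : Matrix (Fin n) (Fin n) ℝ) i j) =
      pd k (fun x => s x i j) := by
    intro k
    funext y
    unfold pd
    rw [fderiv_sub_const]
  refine ⟨?_, ?_⟩
  · have := abs_sub_abs_le_abs_sub (s x i j) ((1 : Matrix (Fin n) (Fin n) ℝ) i j)
    linarith
  · refine ⟨((hs.sm i j).contDiffAt.of_le (by norm_cast)), fun k => ?_, fun k l => ?_⟩
    · rw [← e k]; exact P.p1 k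
    · rw [← e l]; exact P.p2 k l

/-- The operator of a slot. -/
theorem La_bd (σ : Sl (VV n) (Fin n)) {f : VV n → ℝ} {b : ℝ} (_ : 0 ≤ b)
    (h1 : ∀ i, |σ.D i f z| ≤ b) (h2 : ∀ i j, |σ.D i (σ.D j f) z| ≤ b)
    (hk : ∀ i, σ.k i z = 0) (hs : ∀ i j, |σ.s i j z| ≤ 2)
    (hd : ∀ i j, |σ.D i (σ.s i j) z| ≤ 1) : |σ.Λ f z| ≤ 3 * (n : ℝ) ^ 2 * b := by
  have e : 3 * (n : ℝ) ^ 2 * b = ∑ _i : Fin n, ∑ _j : Fin n, 3 * b := by
    simp only [Finset.sum_const, Finset.card_univ, Fintype.card_fin, nsmul_eq_mul]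
    ring
  rw [e]
  unfold Sl.Λ
  refine (Finset.abs_sum_le_sum_abs _ _).trans (Finset.sum_le_sum fun i _ => ?_)
  refine (Finset.abs_sum_le_sum_abs _ _).trans (Finset.sum_le_sum fun j _ => ?_)
  rw [hk i, zero_mul, add_zero]
  refine (abs_add_le _ _).trans ?_
  rw [abs_mul, abs_mul]
  have k1 := mul_le_mul (hs i j) (h2 i j) (abs_nonneg _) zero_le_two
  have k2 := mul_le_mul (hd i j) (h1 j) (abs_nonneg _) zero_le_one
  linarith

/-! ## The margin -/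

/-- The constant of the margin. -/
def kM (n : ℕ) (q : Cst) : ℝ := sB * kF n q + 4 / q.c₀ + 42 / 10

theorem dmA (C : Cq n q) (h : PkOk q d) (L : Lo q d z) {μ₀ : Cst → ℝ} (hμ : 0 < μ₀ q)
    (a : Fin n ⊕ Fin n) : |dv (dr n a) (mA μ₀ q d) z| ≤ kM n q * mA μ₀ q d z := by
  have r0 := L.r00 C
  have G0 := GG_pos C h L
  have N0 := N_pos C h z
  have JG := J_G C h L
  have Jr := (J_rr C h L).inv r0
  obtain ⟨dN, bN⟩ := dN_bd C h L a
  have R0 := C.th.R0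
  have σ0 := C.ic.σ0
  have c0 := C.th.c0
  have e : mA μ₀ q d = fun w => μ₀ q * (GG q d w * (rr d w)⁻¹) +
      q.σ / (400 * q.R) * (d.N q w + GG q d w) := by
    funext w
    unfold mA NG
    rw [div_eq_mul_inv (GG q d w)]
  have d1 := diff2 JG.sm
  have d2 := diff2 Jr.sm
  have t0 : 0 < q.σ / (400 * q.R) := by positivity
  rw [e]
  rw [dv_add _ ((d1.fun_mul d2).const_mul _) ((dN.fun_add d1).const_mul _),
    dv_cmul _ _ (d1.fun_mul d2), dv_cmul _ _ (dN.fun_add d1), dv_mul _ d1 d2, dv_add _ dN d1]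
  have g1 := JG.d1 a
  have g2 := Jr.d1 a
  have F4 := kF0 C
  have s1 := sB1
  set S := sB * kF n q with hS
  have S0 : 0 ≤ S := by positivity
  have ir := L.ir C
  have m1 : |dv (dr n a) (GG q d) z * (rr d z)⁻¹| ≤ S * (GG q d z * (rr d z)⁻¹) := by
    rw [abs_mul, abs_of_pos (inv_pos.2 r0), ← mul_assoc]
    exact mul_le_mul_of_nonneg_right g1 (inv_pos.2 r0).le
  have m2 : |GG q d z * dv (dr n a) (fun w => (rr d w)⁻¹) z| ≤
      4 / q.c₀ * (GG q d z * (rr d z)⁻¹) := by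
    rw [abs_mul, abs_of_pos G0]
    have k1 : (rr d z ^ 2)⁻¹ * 2 ≤ 4 / q.c₀ * (rr d z)⁻¹ := by
      have k2 : (rr d z ^ 2)⁻¹ * 2 = 2 * (1 / rr d z) * (rr d z)⁻¹ := by
        field_simp
      rw [k2]
      refine mul_le_mul_of_nonneg_right ?_ (inv_pos.2 r0).le
      have k3 : 4 / q.c₀ = 2 * (2 / q.c₀) := by ring
      rw [k3]
      linarith
    have k4 := mul_le_mul_of_nonneg_left (g2.trans k1) G0.le
    linarith
  have m3 := abs_add_le (dv (dr n a) (GG q d) z * (rr d z)⁻¹)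
    (GG q d z * dv (dr n a) (fun w => (rr d w)⁻¹) z)
  have m4 := abs_add_le (dv (dr n a) (d.N q) z) (dv (dr n a) (GG q d) z)
  refine (abs_add_le _ _).trans ?_
  rw [abs_mul, abs_mul, abs_of_pos hμ, abs_of_pos t0]
  have p1 : 0 ≤ GG q d z * (rr d z)⁻¹ := by positivity
  have p2 : 0 < 4 / q.c₀ := by positivity
  have m5 : |dv (dr n a) (GG q d) z * (rr d z)⁻¹ +
      GG q d z * dv (dr n a) (fun w => (rr d w)⁻¹) z| ≤ kM n q * (GG q d z * (rr d z)⁻¹) := by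
    unfold kM
    rw [← hS]
    nlinarith
  have m6 : |dv (dr n a) (d.N q) z + dv (dr n a) (GG q d) z| ≤
      kM n q * (d.N q z + GG q d z) := by
    unfold kM
    rw [← hS]
    nlinarith [mul_nonneg S0 N0.le, mul_pos p2 N0, mul_pos p2 G0]
  have m7 := mul_le_mul_of_nonneg_left m5 hμ.le
  have m8 := mul_le_mul_of_nonneg_left m6 t0.le
  linarith

/-! ## The row -/

/-- The constant of the row. -/
def kC (n : ℕ) (q : Cst) : ℝ :=
  10 + |kU n q| + |kE n (cl n q)| + |28 / q.c₀ ^ 2| + |kW n q| + 3 * (n : ℝ) ^ 2 * |kW n q| +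
    |sB * kF n q| + |kM n q|

theorem kC_le (n : ℕ) (q : Cst) : 10 ≤ kC n q ∧ kU n q ≤ kC n q ∧ kE n (cl n q) ≤ kC n q ∧
    28 / q.c₀ ^ 2 ≤ kC n q ∧ kW n q ≤ kC n q ∧ 3 * (n : ℝ) ^ 2 * kW n q ≤ kC n q ∧
    sB * kF n q ≤ kC n q ∧ kM n q ≤ kC n q := by
  have a1 := abs_nonneg (kU n q)
  have a2 := abs_nonneg (kE n (cl n q))
  have a3 := abs_nonneg (28 / q.c₀ ^ 2)
  have a4 := abs_nonneg (kW n q)
  have a5 : 0 ≤ 3 * (n : ℝ) ^ 2 * |kW n q| := by positivity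
  have a6 := abs_nonneg (sB * kF n q)
  have a7 := abs_nonneg (kM n q)
  have b1 := le_abs_self (kU n q)
  have b2 := le_abs_self (kE n (cl n q))
  have b3 := le_abs_self (28 / q.c₀ ^ 2)
  have b4 := le_abs_self (kW n q)
  have b5 : 3 * (n : ℝ) ^ 2 * kW n q ≤ 3 * (n : ℝ) ^ 2 * |kW n q| :=
    mul_le_mul_of_nonneg_left b4 (by positivity)
  have b6 := le_abs_self (sB * kF n q)
  have b7 := le_abs_self (kM n q)
  unfold kC
  refine ⟨?_, ?_, ?_, ?_, ?_, ?_, ?_, ?_⟩ <;> linarith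

theorem kC_nb (n : ℕ) : NB_M₀ (kC n) := fun _ => rfl

/-- **Row A-SYM.** -/
theorem rowSym (n : ℕ) : RowSym n := by
  intro μ₀ _ hμ
  refine ⟨kC n, kC_nb n, fun q => by linarith [(kC_le n q).1],
    (ev_cq n).mono fun q C d h z hz => ?_⟩
  have L := lo C h hz
  obtain ⟨c10, cU, cE, cH, cW, cΛ, cG, cM⟩ := kC_le n q
  have r0 := L.r00 C
  have G0 := GG_pos C h L
  have N0 := N_pos C h z
  have NG0 : 0 < NG q d z := add_pos N0 G0
  have R0 := C.th.R0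
  have i0 : 0 < q.R⁻¹ := inv_pos.2 R0
  have i1 : q.R⁻¹ ≤ 1 := inv_le_one_of_one_le₀ C.ic.R1
  have ε0 := C.te.ε0
  have ε1 := C.te.ε1
  have C0 : 0 < kC n q := by linarith
  have hc := C.th.c0
  have JW := J_W C h L
  have t1 := H657.W.Rg.t1 h.rg
  have t2 := H657.W.Rg.t2 h.rg
  have ds1 : ∀ i j k, |d.sx.D k (d.sx.s i j) z| ≤ 1 := fun i j k => by
    rw [sxD]
    exact (J2.fst (s_bd t1 ε0.le ε1 C.ic.R1 z.1 i j).2 zero_le_one zero_le_one).d1 _
  have ds2 : ∀ i j k, |d.sy.D k (d.sy.s i j) z| ≤ 1 := fun i j k => by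
    rw [syD]
    exact (J2.snd (s_bd t2 ε0.le ε1 C.ic.R1 z.2 i j).2 zero_le_one zero_le_one).d1 _
  have kW0 : 0 ≤ kW n q * NG q d z := by
    have U0 := kU0 n q
    have F4 := kF0 C
    have s1 := sB1
    unfold kW
    positivity
  have BW := Bd_of d JW
  have k0 : ∀ (i : Fin n) (x : V n), -((n : ℝ) - 1) * pd i (fun _ => (1 : ℝ)) x = 0 := by
    intro i x
    unfold pd
    simp
  have Λ1 : |d.sx.Λ (d.W q) z| ≤ 3 * (n : ℝ) ^ 2 * (kW n q * NG q d z) :=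
    La_bd d.sx kW0 BW.x BW.xx (fun i => k0 i z.1)
      (fun i j => (s_bd t1 ε0.le ε1 C.ic.R1 z.1 i j).1) fun i j => ds1 i j i
  have Λ2 : |d.sy.Λ (d.W q) z| ≤ 3 * (n : ℝ) ^ 2 * (kW n q * NG q d z) :=
    La_bd d.sy kW0 BW.y BW.yy (fun i => k0 i z.2)
      (fun i j => (s_bd t2 ε0.le ε1 C.ic.R1 z.2 i j).1) fun i j => ds2 i j i
  have eΛ : 3 * (n : ℝ) ^ 2 * (kW n q * NG q d z) ≤ kC n q * NG q d z := by
    have := mul_le_mul_of_nonneg_right cΛ NG0.le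
    linarith
  have m0 : 0 < mA μ₀ q d z := by
    have := hμ q
    have := C.ic.σ0
    unfold mA
    positivity
  refine ⟨Bd_of d ((J_u C h L).mono le_rfl cU),
    Bd_of d ((J_rr C h L).mono le_rfl (div_le_div_of_nonneg_right (by linarith) r0.le)),
    fun l => Bd_of d ((J_ee C h L l).mono ?_ ?_),
    fun l => Bd_of d ((J_hh C L l).mono (div_le_div_of_nonneg_right (by linarith) r0.le) cH),
    Bd_of d (JW.mono (mul_le_mul_of_nonneg_right cW NG0.le)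
      (mul_le_mul_of_nonneg_right cW NG0.le)),
    Λ1.trans eΛ, Λ2.trans eΛ, fun i => ?_, fun i => ?_, fun i => ?_, fun i => ?_,
    fun i j k => ⟨ds1 i j k, ds2 i j k⟩⟩
  · have h1 := mul_le_mul_of_nonneg_right cE i0.le
    have h2 := mul_le_mul_of_nonneg_left (L.iR C) C0.le
    rw [mul_one_div] at h2
    exact h1.trans h2
  · have h1 := mul_le_mul_of_nonneg_right cE i0.le
    have h2 := mul_le_mul_of_nonneg_left i1 C0.le
    rw [mul_one] at h2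
    exact h1.trans h2
  · rw [sxD]
    exact ((J_G C h L).d1 _).trans (mul_le_mul_of_nonneg_right cG G0.le)
  · rw [syD]
    exact ((J_G C h L).d1 _).trans (mul_le_mul_of_nonneg_right cG G0.le)
  · rw [sxD]
    exact (dmA C h L (hμ q) _).trans (mul_le_mul_of_nonneg_right cM m0.le)
  · rw [syD]
    exact (dmA C h L (hμ q) _).trans (mul_le_mul_of_nonneg_right cM m0.le)

end Vale.Agent.P088.R2.H808.A
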