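import Vale.Agent.P088.R2.H808.A.Pc
import Vale.Agent.P088.R2.H747.A.Rows
import Vale.Agent.P088.R2.H768.A.WD
import Vale.Agent.P088.R2.H313.EP.MuE
import Vale.Agent.P088.R2.H404.INF.Alv
import Vale.Agent.P088.R2.H475.INF.LevD

/-!
# Zone A: the position of the points of `OmB`
-/

open Set Filter
open scoped ContDiff Topology

noncomputable section

namespace Vale.Agent.P088.R2.H808.A

open Vale.Agent.P088.LR
open Vale.Agent.P088.HY hiding dd
open Vale.Agent.P088.R2.H31.EP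
open Vale.Agent.P088.R2.H464.Cu (mid)
open Vale.Agent.P088.R2.H657.W (TR cG cG_nn)
open Vale.Agent.P088.R2.H238.C (Te Th gi_TR r2_eq r2_ge r2_le)
open Vale.Agent.P088.R2.H747.A
open Vale.Agent.P088.R2.H404.INF (InfC Glv LvG lvG)
open Vale.Agent.P088.R2.H475 (wR wv levG lam0)
open Vale.Agent.P088.R2.H313.EP (MuOk muG)
open Vale.Agent.P088.R2.H313.Mu (b1)

variable {n : ℕ} {q : Cst} {d : Pk n} {z : VV n}

/-- A bound of the first two derivatives of the cut-off. -/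
theorem chX_ex : ∃ X : ℝ, 0 < X ∧ ∀ s ∈ Icc (0 : ℝ) 5, |deriv chi0 s| ≤ X ∧
    |deriv (deriv chi0) s| ≤ X := by
  have h0 : ContDiff ℝ ∞ chi0 := by
    unfold chi0
    exact Real.smoothTransition.contDiff.comp
      ((contDiff_const.sub contDiff_id).div_const 3)
  have h1 : ContDiff ℝ ∞ (deriv chi0) := (contDiff_infty_iff_deriv.1 h0).2
  have h2 : ContDiff ℝ ∞ (deriv (deriv chi0)) := (contDiff_infty_iff_deriv.1 h1).2
  obtain ⟨A, hA⟩ := isCompact_Icc.exists_bound_of_continuousOn (s := Icc (0 : ℝ) 5)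
    h1.continuous.continuousOn
  obtain ⟨B, hB⟩ := isCompact_Icc.exists_bound_of_continuousOn (s := Icc (0 : ℝ) 5)
    h2.continuous.continuousOn
  refine ⟨|A| + |B| + 1, by positivity, fun s hs => ⟨?_, ?_⟩⟩
  · have := hA s hs
    rw [Real.norm_eq_abs] at this
    have := le_abs_self A
    have := abs_nonneg B
    linarith
  · have := hB s hs
    rw [Real.norm_eq_abs] at this
    have := le_abs_self B
    have := abs_nonneg A
    linarith

def chX : ℝ := chX_ex.choose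
theorem chX0 : 0 < chX := chX_ex.choose_spec.1
theorem chX_bd {s : ℝ} (hs : s ∈ Icc (0 : ℝ) 5) : |deriv chi0 s| ≤ chX ∧
    |deriv (deriv chi0) s| ≤ chX := chX_ex.choose_spec.2 s hs

/-- The size of `μ` and its derivatives. -/
def mG : ℝ := muG 0 + muG 1 + muG 2

theorem mG0 : 0 < mG := by
  have := H313.EP.muG0 0
  have := H313.EP.muG0 1
  have := H313.EP.muG0 2
  unfold mG
  linarith

/-- The thresholds. -/
structure Cq (n : ℕ) (q : Cst) : Prop where
  th : Th q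
  te : Te n q
  ic : InfC q
  cn : H768.A.Cn n q
  gε : 5 * (n ^ 2 * (cG n 12 * q.ε)) ≤ 1
  mμ : 4 * ((6 * chX + 1) * mG) * b1 1 q.M₀ ≤ 1
  mu : ∀ d : Pk n, PkOk q d → MuOk q d

theorem ev_cq (n : ℕ) : EvC (Cq n) := by
  have key : ∀ c : ℝ, 0 ≤ c → ∀ b : ℝ, 0 < b → ∀ᶠ t in sml, c * t ≤ b := by
    intro c hc b hb
    filter_upwards [sml_pos, sml_le (a := b / (c + 1)) (by positivity)] with t h1 h2
    rw [le_div_iff₀ (by positivity)] at h2
    nlinarith
  have h5 := EvC.at_ε (fun _ t => 5 * ((n : ℝ) ^ 2 * (cG n 12 * t)) ≤ 1) (fun _ => by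
    have := key (5 * (n ^ 2 * cG n 12)) (by have := cG_nn n 12; positivity) 1 one_pos
    filter_upwards [this] with t ht
    linarith)
  have h6 := EvC.at_M₀ (fun _ t => 4 * ((6 * chX + 1) * mG) * b1 1 t ≤ 1) (fun _ => by
    have hp : 0 < 4 * ((6 * chX + 1) * mG) := by
      have := chX0
      have := mG0
      positivity
    obtain ⟨Ms, hMs⟩ := H313.Mu.b1_small 1 (one_div_pos.2 hp)
    filter_upwards [eventually_ge_atTop Ms] with t ht
    have := hMs t ht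
    rwa [le_div_iff₀ hp, mul_comm] at this)
  refine ((((H238.C.EvC.thr.and (H238.C.EvC.te n)).and (H404.INF.evInf.and (H768.A.ev_cn n))).and
    (h5.and h6)).and (H313.EP.EvC.muOk (n := n))).mono ?_
  rintro q ⟨⟨⟨⟨a1, a2⟩, a3, a4⟩, a5, a6⟩, a7⟩
  exact ⟨a1, a2, a3, a4, a5, a6, a7⟩

/-- The position of the points. -/
structure Lo (q : Cst) (d : Pk n) (z : VV n) : Prop where
  r0 : q.c₀ / 2 < rr d z
  Q0 : 0 < qn z
  Qr : qn z ≤ 101 / 100 * rr d z
  rQ : rr d z ≤ 101 / 100 * qn z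
  QR : qn z ≤ q.R / 50
  rR : rr d z ≤ q.R
  g1 : ∑ i, pd i d.l z.1 ^ 2 ≤ (1001 / 1000) ^ 2
  g2 : ∑ i, pd i d.l z.2 ^ 2 ≤ (1001 / 1000) ^ 2
  gm : ∑ i, pd i d.l (mid z) ^ 2 ≤ (1001 / 1000) ^ 2
  gM : (24 / 25) ^ 2 ≤ ∑ i, pd i d.l (mid z) ^ 2
  l1 : d.l z.1 < d.l₀ q + 26 / 10 * q.R
  l2 : d.l z.2 < d.l₀ q + 26 / 10 * q.R
  ua : d.u q z < d.uta q

theorem lo (C : Cq n q) (h : PkOk q d) (hz : z ∈ OmB q d) : Lo q d z := by
  obtain ⟨h1, h2, h3, h4, h5, h6, -⟩ := hz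
  have T := C.th
  have I := C.ic
  have hR := T.R0
  have hc := T.c0
  have hL := lvG I h
  have hr2 : 0 < d.r2 z := lt_of_le_of_lt (sq_nonneg _) h1
  have hr : q.c₀ / 2 < rr d z := Real.lt_sqrt_of_sq_lt h1
  have r0 : 0 < rr d z := lt_trans (by positivity) hr
  have er : rr d z ^ 2 = d.r2 z := Real.sq_sqrt hr2.le
  have k1 := r2_ge h T C.te z
  have k2 := r2_le h T C.te z
  have q2 : 0 < HY.sq (z.1 - z.2) := by
    by_contra hc
    have : 0 ≤ HY.sq (z.1 - z.2) := Finset.sum_nonneg fun i _ => sq_nonneg _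
    have : HY.sq (z.1 - z.2) = 0 := le_antisymm (not_lt.1 hc) this
    rw [this] at k2
    linarith
  have Q0 : 0 < qn z := Real.sqrt_pos.2 q2
  have eQ : qn z ^ 2 = HY.sq (z.1 - z.2) := Real.sq_sqrt q2.le
  have Qr : qn z ≤ 101 / 100 * rr d z := by
    refine le_of_sq_le_sq ?_ (by positivity)
    rw [mul_pow, er, eQ]
    linarith
  have rQ : rr d z ≤ 101 / 100 * qn z := by
    refine le_of_sq_le_sq ?_ (by positivity)
    rw [mul_pow, er, eQ]
    linarith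
  have QR : qn z ≤ q.R / 50 := by
    have : qn z < q.κ₁ * q.R := by
      refine lt_of_pow_lt_pow_left₀ 2 (by have := I.κ0; positivity) ?_
      rw [eQ]; exact h2
    have := mul_le_mul_of_nonneg_right I.κ1 hR.le
    linarith
  -- gradients
  have e3 : d.l z.1 ≤ d.l₀ q + 5 / 2 * q.R := h3.le
  have e4 : d.l z.2 ≤ d.l₀ q + 5 / 2 * q.R := h4.le
  have s1 : (1 : ℝ) + 10 * q.σ ≤ (1001 / 1000) ^ 2 + 1 / 1000 * 0 := by
    have := I.σ1
    nlinarith
  have hm1 : ∀ x : V n, d.l x ≤ d.l₀ q + 5 * q.R →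
      ∑ i, pd i d.l x ^ 2 ≤ (1001 / 1000) ^ 2 := by
    intro x hx
    have hl := h.lev.lit
    rw [H404.INF.l₀_eq, hl] at hx
    rw [hl]
    refine (H475.grad_levG_le' I.σ0 I.σ1 hR hx).trans ?_
    linarith
  -- the point in the middle
  have mx : z.1 - mid z = (1 / 2 : ℝ) • (z.1 - z.2) := by
    funext i
    simp only [mid, Pi.sub_apply, Pi.smul_apply, Pi.add_apply, smul_eq_mul]
    ring
  have dm : √(HY.sq (z.1 - mid z)) = 1 / 2 * qn z := by
    rw [mx, H475.en_smul, abs_of_pos (by norm_num)]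
    rfl
  have dm' : √(HY.sq (mid z - z.1)) = 1 / 2 * qn z := by
    rw [← dm]
    congr 1
    unfold HY.sq
    refine Finset.sum_congr rfl fun i _ => ?_
    simp only [Pi.sub_apply]
    ring
  have wx : √(HY.sq (wv n q.σ (q.R⁻¹ • z.1))) ≤ 1 + q.σ * (5 / 2) :=
    hL.g.t_le I.σ0 (by norm_num) ((hL.l12 _).2 e3)
  have wy : √(HY.sq (wv n q.σ (q.R⁻¹ • z.2))) ≤ 1 + q.σ * (5 / 2) :=
    hL.g.t_le I.σ0 (by norm_num) ((hL.l12 _).2 e4)
  have wm : √(HY.sq (wv n q.σ (q.R⁻¹ • mid z))) ≤ 101 / 100 := by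
    have h7 := H475.en_wR_le (n := n) I.σ0 hR (mid z) z.1
    rw [dm'] at h7
    have h8 : q.σ / q.R * (1 / 2 * qn z) ≤ q.σ / 100 := by
      calc q.σ / q.R * (1 / 2 * qn z) ≤ q.σ / q.R * (1 / 2 * (q.R / 50)) := by
            have := I.σ0
            gcongr
        _ = q.σ / 100 := by field_simp; ring
    have h9 := I.σ1
    unfold wR at h7
    linarith
  have lip : |d.l z.1 - d.l (mid z)| ≤ q.R / 90 := by
    have h9 := I.σ1
    have h7 := hL.g.lip (q.R⁻¹ • z.1) (q.R⁻¹ • mid z) (by linarith) wm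
    rw [H404.INF.en_div hR, dm] at h7
    rw [hL.eq z.1, hL.eq (mid z)]
    have e : d.l₀ q + q.R * H475.gg n q.σ (q.R⁻¹ • z.1) -
        (d.l₀ q + q.R * H475.gg n q.σ (q.R⁻¹ • mid z)) =
        q.R * (H475.gg n q.σ (q.R⁻¹ • z.1) - H475.gg n q.σ (q.R⁻¹ • mid z)) := by ring
    rw [e, abs_mul, abs_of_pos hR]
    refine (mul_le_mul_of_nonneg_left h7 hR.le).trans ?_
    have : q.R * (101 / 100 * (1 / 2 * qn z / q.R)) = 101 / 200 * qn z := by
      field_simp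
      norm_num
    rw [this]
    linarith
  obtain ⟨p1, p2⟩ := abs_le.1 lip
  have lm : d.l (mid z) ≤ d.l₀ q + 5 * q.R := by linarith
  have dy : |d.l z.2 - d.l z.1| ≤ q.R / 40 := by
    have h9 := I.σ1
    have h7 := hL.g.lip (q.R⁻¹ • z.1) (q.R⁻¹ • z.2) (by linarith) (by linarith)
    rw [H404.INF.en_div hR] at h7
    rw [abs_sub_comm, hL.eq z.1, hL.eq z.2]
    have e : d.l₀ q + q.R * H475.gg n q.σ (q.R⁻¹ • z.1) -
        (d.l₀ q + q.R * H475.gg n q.σ (q.R⁻¹ • z.2)) =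
        q.R * (H475.gg n q.σ (q.R⁻¹ • z.1) - H475.gg n q.σ (q.R⁻¹ • z.2)) := by ring
    rw [e, abs_mul, abs_of_pos hR]
    refine (mul_le_mul_of_nonneg_left h7 hR.le).trans ?_
    have : q.R * (101 / 100 * (√(HY.sq (z.1 - z.2)) / q.R)) = 101 / 100 * qn z := by
      unfold qn
      field_simp
    rw [this]
    linarith
  obtain ⟨p3, p4⟩ := abs_le.1 dy
  have gM : (24 / 25) ^ 2 ≤ ∑ i, pd i d.l (mid z) ^ 2 := by
    have hl := h.lev.lit
    have hw : 2 / 25 ≤ √(HY.sq (wR n q.σ q.R (mid z))) := by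
      by_contra hc
      have h7 := H475.levG_deep (kap := d.kap) (Gs := d.Gs) I.σ0 I.σ1 hR (not_le.1 hc).le
      rw [← hl, ← H404.INF.l₀_eq] at h7
      have h8 := H404.INF.l₀_le I h
      have h10 : 5000 * q.R ≤ q.R / q.σ := by
        rw [le_div_iff₀ I.σ0]
        have := I.σ1
        nlinarith
      have h11 : q.η * q.R ≤ 1 / 200 * q.R := mul_le_mul_of_nonneg_right I.η1 hR.le
      linarith
    rw [hl]
    exact H475.grad_levG_ge I.σ0 I.σ1 hR hw
  refine ⟨hr, Q0, Qr, rQ, QR, by linarith, hm1 _ (by linarith), hm1 _ (by linarith), hm1 _ lm, gM,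
    by linarith, by linarith, h6⟩

end Vale.Agent.P088.R2.H808.A
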