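import Vale.Agent.P088.R2.H808.A.Base
import Vale.Agent.P088.R2.H238.C.Geo

/-!
# Bounds of the derivatives: roots, inverses, differences, the distance
-/

open Set Filter
open scoped ContDiff Topology

noncomputable section

namespace Vale.Agent.P088.R2.H808.A

open Vale.Agent.P088.LR Vale.Agent.P088.HY
open Vale.Agent.P088.R2.H31.EP
open Vale.Agent.P088.R2.H464.Cu (mid dif midL midL_apply)
open Vale.Agent.P088.R2.H657.W (TR cG cG_nn)
open Vale.Agent.P088.R2.H238.C (Te Th gi_TR r2_eq r2_ge r2_le)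

section gen

variable {E α : Type*} [NormedAddCommGroup E] [NormedSpace ℝ E]
variable {e : α → E} {f g : E → ℝ} {z : E} {b₁ b₂ c₁ c₂ B C : ℝ}

theorem J2.sqrt (hf : J2 e f b₁ b₂ z) (h0 : 0 < f z) :
    J2 e (fun w => √(f w)) (1 / (2 * √(f z)) * b₁)
      (1 / (4 * √(f z) ^ 3) * b₁ ^ 2 + 1 / (2 * √(f z)) * b₂) z := by
  have hs : 0 < √(f z) := Real.sqrt_pos.2 h0
  refine hf.comp' (φ := fun t => √t) (φ₁ := fun t => 1 / (2 * √t))
    (φ₂ := fun t => -(1 / (4 * √t ^ 3))) isOpen_Ioi (mem_Ioi.2 h0) ?_ ?_ ?_ ?_ ?_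
  · exact contDiffOn_id.sqrt fun t ht => (mem_Ioi.1 ht).ne'
  · intro t ht
    exact Real.hasDerivAt_sqrt (mem_Ioi.1 ht).ne'
  · intro t ht
    have ht0 : 0 < √t := Real.sqrt_pos.2 (mem_Ioi.1 ht)
    have h1 := ((Real.hasDerivAt_sqrt (mem_Ioi.1 ht).ne').const_mul 2).inv (by positivity)
    have e1 : (fun t => 1 / (2 * √t)) = (fun y => 2 * √y)⁻¹ := by
      funext t
      simp
    rw [e1]
    refine h1.congr_deriv ?_
    field_simp
    ring
  · rw [abs_of_pos (by positivity)]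
  · rw [abs_neg, abs_of_pos (by positivity)]

theorem J2.inv (hf : J2 e f b₁ b₂ z) (h0 : 0 < f z) :
    J2 e (fun w => (f w)⁻¹) ((f z ^ 2)⁻¹ * b₁) (2 * (f z ^ 3)⁻¹ * b₁ ^ 2 + (f z ^ 2)⁻¹ * b₂) z := by
  refine hf.comp' (φ := fun t => t⁻¹) (φ₁ := fun t => -(t ^ 2)⁻¹)
    (φ₂ := fun t => 2 * (t ^ 3)⁻¹) isOpen_Ioi (mem_Ioi.2 h0) ?_ ?_ ?_ ?_ ?_
  · exact contDiffOn_id.inv fun t ht => (mem_Ioi.1 ht).ne'
  · intro t ht
    exact hasDerivAt_inv (mem_Ioi.1 ht).ne'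
  · intro t ht
    have ht0 : 0 < t := mem_Ioi.1 ht
    have h1 := ((hasDerivAt_pow 2 t).inv (by positivity)).neg
    refine (h1.congr_deriv ?_).congr_of_eventuallyEq ?_
    · field_simp
      norm_num
      ring
    · exact Eventually.of_forall fun t => by simp
  · rw [abs_neg, abs_of_pos (by positivity)]
  · rw [abs_of_pos (by positivity)]

end gen

variable {n : ℕ}

section pairs

variable {ψ χ : V n → ℝ} {b₁ b₂ : ℝ} {x : V n} {z : VV n}

theorem J2.dif (h : P2 ψ b₁ b₂ (z.1 - z.2)) : J2 (dr n) (fun w => ψ (w.1 - w.2)) b₁ b₂ z := by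
  have e1 : ∀ a : Fin n ⊕ Fin n, ∃ s : ℝ, |s| = 1 ∧
      (ContinuousLinearMap.fst ℝ (V n) (V n) - ContinuousLinearMap.snd ℝ (V n) (V n)) (dr n a) =
        s • Pi.single (Sum.elim id id a) 1 := by
    rintro (i | i)
    · exact ⟨1, by simp, by simp [dr]⟩
    · exact ⟨-1, by simp, by simp [dr]⟩
  refine J2.clin (ContinuousLinearMap.fst ℝ (V n) (V n) - ContinuousLinearMap.snd ℝ (V n) (V n))
    (ψ := ψ) h.sm (fun a => ?_) fun a b => ?_
  · obtain ⟨s, hs, h1⟩ := e1 a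
    rw [h1, map_smul, smul_eq_mul, abs_mul, hs, one_mul]
    exact h.p1 _
  · obtain ⟨s, hs, h1⟩ := e1 a
    obtain ⟨t, ht, h2⟩ := e1 b
    rw [h1, h2, map_smul, map_smul, smul_apply, smul_eq_mul, smul_eq_mul, abs_mul, abs_mul, hs, ht,
      one_mul, one_mul]
    have := h.p2 (Sum.elim id id a) (Sum.elim id id b)
    rw [pd_pd h.sm] at this
    exact this

theorem dv_snd_inl {w : VV n} (h : DifferentiableAt ℝ ψ w.2) (i : Fin n) :
    dv (dr n (Sum.inl i)) (fun w => ψ w.2) w = 0 := by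
  unfold dv
  have h1 : HasFDerivAt (fun w : VV n => ψ w.2) ((fderiv ℝ ψ w.2).comp
    (ContinuousLinearMap.snd ℝ (V n) (V n))) w := h.hasFDerivAt.comp w hasFDerivAt_snd
  rw [h1.fderiv]
  simp [dr]

theorem dv_fst_inr {w : VV n} (h : DifferentiableAt ℝ ψ w.1) (i : Fin n) :
    dv (dr n (Sum.inr i)) (fun w => ψ w.1) w = 0 := by
  unfold dv
  have h1 : HasFDerivAt (fun w : VV n => ψ w.1) ((fderiv ℝ ψ w.1).comp
    (ContinuousLinearMap.fst ℝ (V n) (V n))) w := h.hasFDerivAt.comp w hasFDerivAt_fst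
  rw [h1.fderiv]
  simp [dr]

theorem ev_diff1 {f : V n → ℝ} (h : ContDiffAt ℝ 2 f x) : ∀ᶠ y in 𝓝 x, DifferentiableAt ℝ f y :=
  (h.eventually (by simp)).mono fun _ h => h.differentiableAt (by norm_num)

/-- Separated variables. -/
theorem J2.fs (h : P2 ψ b₁ b₂ z.1) (h' : P2 χ b₁ b₂ z.2) (n1 : 0 ≤ b₁) (n2 : 0 ≤ b₂) :
    J2 (dr n) (fun w => ψ w.1 + χ w.2) b₁ b₂ z := by
  have j1 := J2.fst h n1 n2
  have j2 := J2.snd h' n1 n2
  have v1 : ∀ᶠ w : VV n in 𝓝 z, DifferentiableAt ℝ ψ w.1 :=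
    continuous_fst.continuousAt.eventually (ev_diff1 h.sm)
  have v2 : ∀ᶠ w : VV n in 𝓝 z, DifferentiableAt ℝ χ w.2 :=
    continuous_snd.continuousAt.eventually (ev_diff1 h'.sm)
  have k1 : ∀ i, dv (dr n (Sum.inl i)) (fun w => ψ w.1 + χ w.2) =ᶠ[𝓝 z]
      dv (dr n (Sum.inl i)) (fun w => ψ w.1) := fun i => by
    filter_upwards [ev_diff j1.sm, ev_diff j2.sm, v2] with w a b c
    rw [dv_add _ a b, dv_snd_inl c, add_zero]
  have k2 : ∀ i, dv (dr n (Sum.inr i)) (fun w => ψ w.1 + χ w.2) =ᶠ[𝓝 z]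
      dv (dr n (Sum.inr i)) (fun w => χ w.2) := fun i => by
    filter_upwards [ev_diff j1.sm, ev_diff j2.sm, v1] with w a b c
    rw [dv_add _ a b, dv_fst_inr c, zero_add]
  refine ⟨j1.sm.add j2.sm, fun a => ?_, fun a b => ?_⟩
  · rcases a with i | i
    · rw [(k1 i).eq_of_nhds]; exact j1.d1 _
    · rw [(k2 i).eq_of_nhds]; exact j2.d1 _
  · rcases b with i | i
    · rw [dv_congr _ (k1 i)]; exact j1.d2 _ _
    · rw [dv_congr _ (k2 i)]; exact j2.d2 _ _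

end pairs

/-! ## The length of `x - y` -/

theorem pd_sq (i : Fin n) : pd i (HY.sq : V n → ℝ) = fun x => 2 * x i := by
  funext x
  unfold pd
  have h1 : HasFDerivAt (HY.sq : V n → ℝ) (∑ j : Fin n, (2 * x j) •
      (ContinuousLinearMap.proj j : V n →L[ℝ] ℝ)) x := by
    unfold HY.sq
    refine HasFDerivAt.fun_sum fun j _ => ?_
    have h2 := (hasFDerivAt_apply (𝕜 := ℝ) (F' := fun _ : Fin n => ℝ) j x).pow 2
    simpa using h2
  rw [h1.fderiv]
  simp [Pi.single_apply]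

theorem P2_sq (x : V n) : P2 HY.sq (2 * √(HY.sq x)) 2 x := by
  refine ⟨?_, fun i => ?_, fun i j => ?_⟩
  · unfold HY.sq
    exact ContDiffAt.sum fun i _ => (contDiff_apply ℝ ℝ i).contDiffAt.pow 2
  · rw [pd_sq, abs_mul, abs_two]
    refine mul_le_mul_of_nonneg_left ?_ zero_le_two
    refine Real.abs_le_sqrt ?_
    unfold HY.sq
    exact Finset.single_le_sum (f := fun i => x i ^ 2) (fun i _ => sq_nonneg _) (Finset.mem_univ i)
  · rw [pd_sq]
    unfold pd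
    have h1 : HasFDerivAt (fun x : V n => 2 * x j) ((2 : ℝ) •
      (ContinuousLinearMap.proj j : V n →L[ℝ] ℝ)) x :=
      (hasFDerivAt_apply (𝕜 := ℝ) (F' := fun _ : Fin n => ℝ) j x).const_mul 2
    rw [h1.fderiv]
    by_cases hij : i = j
    · subst hij; simp
    · simp [Ne.symm hij]

/-- `|x - y|`. -/
def qn (z : VV n) : ℝ := √(HY.sq (z.1 - z.2))

theorem J2.sqn (z : VV n) : J2 (dr n) (fun w => HY.sq (w.1 - w.2)) (2 * qn z) 2 z :=
  J2.dif (P2_sq (z.1 - z.2))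

theorem J2.qn {z : VV n} (h : 0 < qn z) : J2 (dr n) qn 1 (2 / qn z) z := by
  have h0 : 0 < HY.sq (z.1 - z.2) := Real.sqrt_pos.1 h
  refine (J2.sqn z).sqrt h0 |>.mono (le_of_eq ?_) (le_of_eq ?_)
  · show 1 / (2 * A.qn z) * (2 * A.qn z) = 1
    field_simp
  · show 1 / (4 * A.qn z ^ 3) * (2 * A.qn z) ^ 2 + 1 / (2 * A.qn z) * 2 = 2 / A.qn z
    field_simp
    ring

theorem abs_dif_le (z : VV n) (i : Fin n) : |z.1 i - z.2 i| ≤ qn z := by
  refine Real.abs_le_sqrt ?_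
  unfold HY.sq
  exact Finset.single_le_sum (f := fun i => (z.1 - z.2) i ^ 2) (fun i _ => sq_nonneg _)
    (Finset.mem_univ i)

/-- The direction of `x - y`. -/
theorem J2.hh {z : VV n} (h : 0 < A.qn z) (l : Fin n) :
    J2 (dr n) (fun w => (A.qn w)⁻¹ * (w.1 l - w.2 l)) (2 / A.qn z) (6 / A.qn z ^ 2) z := by
  have h1 := (J2.qn h).inv h
  have h2 := h1.mul (J2.q (z := z) l) (B := (A.qn z)⁻¹) (C := A.qn z)
    (by rw [abs_of_pos (inv_pos.2 h)]) (abs_dif_le z l)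
  refine h2.mono (le_of_eq ?_) (le_of_eq ?_)
  · field_simp
    norm_num
  · field_simp
    norm_num

/-! ## The distance `r` -/

variable {q : Cst} {d : Pk n}

theorem J2.r2 (h : PkOk q d) (T : Th q) (E : Te n q) (h5 : 5 * (n ^ 2 * (cG n 12 * q.ε)) ≤ 1)
    {z : VV n} (hz : A.qn z ≤ q.R) : J2 (dr n) d.r2 (5 / 2 * A.qn z) 3 z := by
  have hg := gi_TR h T E
  set a := cG n 12 * q.ε with ha
  have a0 : 0 ≤ a := mul_nonneg (cG_nn n 12) E.ε0.le
  have hR := T.R0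
  have Q0 : 0 ≤ A.qn z := Real.sqrt_nonneg _
  have t1 : ∀ i j, J2 (dr n) (fun w : VV n => gi d.s₁ (H464.Cu.mid w) i j -
      (1 : Matrix (Fin n) (Fin n) ℝ) i j) (1 / 2 * (a * q.R⁻¹)) (1 / 4 * (a * q.R⁻¹ ^ 2)) z := by
    intro i j
    refine J2.mid (ψ := fun x => gi d.s₁ x i j - (1 : Matrix (Fin n) (Fin n) ℝ) i j)
      (P2.of_jet ((hg.sm i j).sub contDiff_const) ?_ ?_)
    · simpa using hg.cl i j 1 (by norm_num) (H464.Cu.mid z)
    · exact hg.cl i j 2 (by norm_num) (H464.Cu.mid z)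
  have v1 : ∀ i j, |gi d.s₁ (H464.Cu.mid z) i j - (1 : Matrix (Fin n) (Fin n) ℝ) i j| ≤ a := by
    intro i j
    simpa using hg.cl i j 0 (by norm_num) (H464.Cu.mid z)
  have t2 : ∀ i j, J2 (dr n) (fun w : VV n => (gi d.s₁ (H464.Cu.mid w) i j -
      (1 : Matrix (Fin n) (Fin n) ℝ) i j) * (w.1 i - w.2 i) * (w.1 j - w.2 j))
        (5 / 2 * a * A.qn z) (17 / 4 * a) z := by
    intro i j
    have u1 := (t1 i j).mul (J2.q (z := z) i) (v1 i j) (abs_dif_le z i)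
    have w1 : |(gi d.s₁ (H464.Cu.mid z) i j - (1 : Matrix (Fin n) (Fin n) ℝ) i j) *
        (z.1 i - z.2 i)| ≤ a * A.qn z := by
      rw [abs_mul]
      exact mul_le_mul (v1 i j) (abs_dif_le z i) (abs_nonneg _) a0
    have u2 := u1.mul (J2.q (z := z) j) w1 (abs_dif_le z j)
    have k1 : q.R⁻¹ * A.qn z ≤ 1 := by
      rw [inv_mul_le_iff₀ hR]
      linarith
    have k2 : 0 ≤ q.R⁻¹ * A.qn z := by positivity
    refine u2.mono ?_ ?_
    · have : (1 / 2 * (a * q.R⁻¹) * A.qn z + a * 1) * A.qn z + a * A.qn z * 1 =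
        1 / 2 * (a * A.qn z) * (q.R⁻¹ * A.qn z) + 2 * (a * A.qn z) := by ring
      rw [this]
      have h1 : 0 ≤ 1 / 2 * (a * A.qn z) := by positivity
      nlinarith
    · have : (1 / 4 * (a * q.R⁻¹ ^ 2) * A.qn z + 2 * (1 / 2 * (a * q.R⁻¹) * 1) + a * 0) * A.qn z +
        2 * ((1 / 2 * (a * q.R⁻¹) * A.qn z + a * 1) * 1) + a * A.qn z * 0 =
        1 / 4 * a * (q.R⁻¹ * A.qn z) ^ 2 + 2 * a * (q.R⁻¹ * A.qn z) + 2 * a := by ring
      rw [this]
      have h1 : (q.R⁻¹ * A.qn z) ^ 2 ≤ 1 := pow_le_one₀ k2 k1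
      nlinarith
  have t3 := J2.sum Finset.univ fun i (_ : i ∈ Finset.univ) =>
    J2.sum Finset.univ fun j (_ : j ∈ Finset.univ) => t2 i j
  have t4 := (J2.sqn z).add t3
  have e1 : d.r2 = fun w : VV n => HY.sq (w.1 - w.2) + ∑ i, ∑ j, (gi d.s₁ (H464.Cu.mid w) i j -
      (1 : Matrix (Fin n) (Fin n) ℝ) i j) * (w.1 i - w.2 i) * (w.1 j - w.2 j) := by
    funext w
    rw [r2_eq]
    have h1 : HY.sq (w.1 - w.2) = ∑ i, ∑ j, (1 : Matrix (Fin n) (Fin n) ℝ) i j *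
        (w.1 i - w.2 i) * (w.1 j - w.2 j) := by
      unfold HY.sq
      refine Finset.sum_congr rfl fun i _ => ?_
      simp only [Matrix.one_apply, ite_mul, one_mul, zero_mul, Finset.sum_ite_eq,
        Finset.mem_univ, if_true, Pi.sub_apply]
      ring
    rw [h1, ← Finset.sum_add_distrib]
    refine Finset.sum_congr rfl fun i _ => ?_
    rw [← Finset.sum_add_distrib]
    refine Finset.sum_congr rfl fun j _ => ?_
    have e2 : ∀ i, H464.Cu.dif w i = w.1 i - w.2 i := fun _ => rfl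
    rw [e2, e2]
    ring
  rw [e1]
  refine t4.mono ?_ ?_
  · simp only [Finset.sum_const, Finset.card_univ, Fintype.card_fin, nsmul_eq_mul]
    nlinarith
  · simp only [Finset.sum_const, Finset.card_univ, Fintype.card_fin, nsmul_eq_mul]
    nlinarith

end Vale.Agent.P088.R2.H808.A
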