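import Vale.Agent.P088.R2.H808.A.Lo

/-!
# Zone A: the derivatives of `u`, `r` and of the two directions
-/

open Set Filter
open scoped ContDiff Topology

noncomputable section

namespace Vale.Agent.P088.R2.H808.A

open Vale.Agent.P088.LR
open Vale.Agent.P088.HY hiding dd
open Vale.Agent.P088.R2.H31.EP
open Vale.Agent.P088.R2.H464.Cu (mid)
open Vale.Agent.P088.R2.H657.W (TR cG cG_nn)
open Vale.Agent.P088.R2.H747.A
open Vale.Agent.P088.R2.H475 (wR wv levG lam0)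
open Vale.Agent.P088.R2.H313.EP (MuOk muG)
open Vale.Agent.P088.R2.H313.Mu (b1)

variable {n : ℕ} {q : Cst} {d : Pk n} {z : VV n}

/-! ## The constants of the level -/

theorem cl_ex (n : ℕ) (σ : ℝ) : ∃ c : ℝ, 0 < c ∧ (1 ≤ n → 0 < σ → σ ≤ 1 / 5000 →
    ∀ R kap Gs : ℝ, 1 ≤ R → ∀ x : V n,
      ‖iteratedFDeriv ℝ 2 (levG n σ R kap Gs) x‖ ≤ c * R⁻¹ ∧
      ‖iteratedFDeriv ℝ 3 (levG n σ R kap Gs) x‖ ≤ c * R⁻¹) := by
  by_cases h : 1 ≤ n ∧ 0 < σ ∧ σ ≤ 1 / 5000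
  · obtain ⟨h1, h2, h3⟩ := h
    obtain ⟨A, a0, hA⟩ := H475.levG_bound (n := n) h1 h2 h3 0
    obtain ⟨B, b0, hB⟩ := H475.levG_bound (n := n) h1 h2 h3 1
    refine ⟨A + B, by linarith, fun _ _ _ R kap Gs hR x => ?_⟩
    have hR0 : 0 < R := by linarith
    have i0 : 0 < R⁻¹ := inv_pos.2 hR0
    have i1 : R⁻¹ ≤ 1 := inv_le_one_of_one_le₀ hR
    constructor
    · have := hA R kap Gs hR0 x
      rw [zero_add, zero_add, pow_one] at this
      nlinarith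
    · have h4 : ‖iteratedFDeriv ℝ 3 (levG n σ R kap Gs) x‖ ≤ B * R⁻¹ ^ 2 := hB R kap Gs hR0 x
      have h5 : R⁻¹ ^ 2 ≤ R⁻¹ := by nlinarith
      have h6 := mul_le_mul_of_nonneg_left h5 b0.le
      nlinarith
  · exact ⟨1, one_pos, fun h1 h2 h3 => absurd ⟨h1, h2, h3⟩ h⟩

/-- The constant of the second and third derivatives of the level. -/
def cl (n : ℕ) (q : Cst) : ℝ := (cl_ex n q.σ).choose

theorem cl0 (n : ℕ) (q : Cst) : 0 < cl n q := (cl_ex n q.σ).choose_spec.1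

theorem lev_bd (C : Cq n q) (h : PkOk q d) (hn : 1 ≤ n) (x : V n) :
    ‖iteratedFDeriv ℝ 2 d.l x‖ ≤ cl n q * q.R⁻¹ ∧
      ‖iteratedFDeriv ℝ 3 d.l x‖ ≤ cl n q * q.R⁻¹ := by
  rw [h.lev.lit]
  exact (cl_ex n q.σ).choose_spec.2 hn C.ic.σ0 C.ic.σ1 _ _ _ C.ic.R1 x

theorem n_pos (hQ : 0 < qn z) : 1 ≤ n := by
  rcases n with _ | n
  · exfalso
    have : qn z = 0 := by
      unfold qn HY.sq
      simp
    linarith
  · omega

theorem pd_le {x : V n} (hs : ∑ i, pd i d.l x ^ 2 ≤ (1001 / 1000) ^ 2) (i : Fin n) :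
    |pd i d.l x| ≤ 1001 / 1000 := by
  refine abs_le_of_sq_le_sq ?_ (by norm_num)
  exact (Finset.single_le_sum (f := fun i => pd i d.l x ^ 2) (fun i _ => sq_nonneg _)
    (Finset.mem_univ i)).trans hs

/-- The level. -/
theorem P2_l (C : Cq n q) (h : PkOk q d) (hn : 1 ≤ n) {x : V n}
    (hs : ∑ i, pd i d.l x ^ 2 ≤ (1001 / 1000) ^ 2) : P2 d.l (1001 / 1000) (cl n q * q.R⁻¹) x :=
  ⟨h.lev.sm.contDiffAt.of_le (by norm_cast), pd_le hs, fun i j =>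
    ((abs_pd i _ x).trans (jet_pd h.lev.sm j 1 x)).trans (lev_bd C h hn x).1⟩

/-! ## `r` -/

theorem J_r2 (C : Cq n q) (h : PkOk q d) (L : Lo q d z) :
    J2 (dr n) d.r2 (5 / 2 * qn z) 3 z :=
  J2.r2 h C.th C.te C.gε (by have := L.QR; have := C.th.R0; linarith)

theorem Lo.r00 (L : Lo q d z) (C : Cq n q) : 0 < rr d z :=
  lt_trans (by have := C.th.c0; positivity) L.r0

theorem J_rr (C : Cq n q) (h : PkOk q d) (L : Lo q d z) : J2 (dr n) (rr d) 2 (4 / rr d z) z := by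
  have r0 := L.r00 C
  have h0 : 0 < d.r2 z := Real.sqrt_pos.1 r0
  refine (J_r2 C h L).sqrt h0 |>.mono ?_ ?_
  · show 1 / (2 * rr d z) * (5 / 2 * qn z) ≤ 2
    have e : 1 / (2 * rr d z) * (5 / 2 * qn z) = 5 / 4 * qn z / rr d z := by field_simp; ring
    rw [e, div_le_iff₀ r0]
    have := L.Qr
    linarith
  · show 1 / (4 * rr d z ^ 3) * (5 / 2 * qn z) ^ 2 + 1 / (2 * rr d z) * 3 ≤ 4 / rr d z
    have e : 1 / (4 * rr d z ^ 3) * (5 / 2 * qn z) ^ 2 + 1 / (2 * rr d z) * 3 =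
      (25 / 16 * qn z ^ 2 / rr d z ^ 2 + 3 / 2) / rr d z := by field_simp; ring
    rw [e]
    refine div_le_div_of_nonneg_right ?_ r0.le
    have h1 : qn z ^ 2 ≤ (101 / 100 * rr d z) ^ 2 := pow_le_pow_left₀ L.Q0.le L.Qr 2
    have h2 : 25 / 16 * qn z ^ 2 / rr d z ^ 2 ≤ 25 / 16 * (101 / 100) ^ 2 := by
      rw [div_le_iff₀ (by positivity)]
      nlinarith
    linarith

/-- `1 / r ≤ 2 / c₀`. -/
theorem Lo.ir (L : Lo q d z) (C : Cq n q) : 1 / rr d z ≤ 2 / q.c₀ := by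
  rw [div_le_div_iff₀ (L.r00 C) C.th.c0]
  have := L.r0
  linarith

/-- `1 / |x - y| ≤ 1.01 / r`. -/
theorem Lo.iQ (L : Lo q d z) (C : Cq n q) : 1 / qn z ≤ 101 / 100 * (1 / rr d z) := by
  have r0 := L.r00 C
  rw [mul_one_div, div_le_div_iff₀ L.Q0 r0]
  have := L.rQ
  linarith

/-- `1 / R ≤ 1 / r`. -/
theorem Lo.iR (L : Lo q d z) (C : Cq n q) : q.R⁻¹ ≤ 1 / rr d z := by
  rw [← one_div]
  exact one_div_le_one_div_of_le (L.r00 C) L.rR

theorem J_hh (C : Cq n q) (L : Lo q d z) (l : Fin n) :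
    J2 (dr n) (hh l) (3 / rr d z) (28 / q.c₀ ^ 2) z := by
  have r0 := L.r00 C
  have iQ0 : 0 ≤ 1 / qn z := by have := L.Q0; positivity
  have h1 := L.iQ C
  have h2 := L.ir C
  have c0 := C.th.c0
  refine (J2.hh L.Q0 l).mono ?_ ?_
  · have e : 2 / qn z = 2 * (1 / qn z) := by ring
    have e2 : 3 / rr d z = 3 * (1 / rr d z) := by ring
    rw [e, e2]
    have : 0 < 1 / rr d z := by positivity
    linarith
  · have e : 6 / qn z ^ 2 = 6 * (1 / qn z) ^ 2 := by ring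
    have e2 : 28 / q.c₀ ^ 2 = 7 * (2 / q.c₀) ^ 2 := by ring
    rw [e, e2]
    have h3 : (1 / qn z) ^ 2 ≤ (101 / 100 * (2 / q.c₀)) ^ 2 :=
      pow_le_pow_left₀ iQ0 (h1.trans (by linarith)) 2
    have h4 : 0 ≤ (2 / q.c₀) ^ 2 := by positivity
    nlinarith

/-! ## The direction of the gradient at the middle -/

/-- The constant of `ee`. -/
def kE (n : ℕ) (c : ℝ) : ℝ :=
  2 * (5 * (4 * n * c) ^ 2 + 2 * (n * (4 * c + 2 * c ^ 2))) + 4 * (4 * n * c * c) + 2 * c +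
    (16 * n * c + 2 * c)

theorem J_ee (C : Cq n q) (h : PkOk q d) (L : Lo q d z) (l : Fin n) :
    J2 (dr n) (ee d l) (kE n (cl n q) * q.R⁻¹) (kE n (cl n q) * q.R⁻¹) z := by
  have hn := n_pos L.Q0
  have c0 := cl0 n q
  set c := cl n q with hc
  set s := q.R⁻¹ with hs
  have s0 : 0 < s := inv_pos.2 C.th.R0
  have s1 : s ≤ 1 := inv_le_one_of_one_le₀ C.ic.R1
  have cs0 : 0 < c * s := mul_pos c0 s0
  have hp : ∀ i, J2 (dr n) (fun w : VV n => pd i d.l (mid w)) (c * s) (c * s) z := by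
    intro i
    obtain ⟨b1, b2⟩ := lev_bd C h hn (mid z)
    refine (J2.mid (ψ := pd i d.l) (P2.pd_of_jet h.lev.sm i b1 b2)).mono ?_ ?_
    · show 1 / 2 * (c * s) ≤ c * s
      linarith
    · show 1 / 4 * (c * s) ≤ c * s
      linarith
  have hv : ∀ i, |pd i d.l (mid z)| ≤ 2 := fun i => (pd_le L.gm i).trans (by norm_num)
  have h2 : ∀ i, J2 (dr n) (fun w : VV n => pd i d.l (mid w) ^ 2) (4 * c * s)
      ((4 * c + 2 * c ^ 2) * s) z := by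
    intro i
    have h3 := (hp i).mul (hp i) (hv i) (hv i)
    have e : (fun w : VV n => pd i d.l (mid w) ^ 2) =
        fun w : VV n => pd i d.l (mid w) * pd i d.l (mid w) := by
      funext w; ring
    rw [e]
    refine h3.mono (le_of_eq (by ring)) ?_
    have h4 : s * s ≤ s := by nlinarith
    have h5 := mul_le_mul_of_nonneg_left h4 (sq_nonneg c)
    nlinarith
  have h3 := J2.sum Finset.univ fun i (_ : i ∈ Finset.univ) => h2 i
  simp only [Finset.sum_const, Finset.card_univ, Fintype.card_fin, nsmul_eq_mul] at h3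
  have S0 : 0 < ∑ i, pd i d.l (mid z) ^ 2 := lt_of_lt_of_le (by norm_num) L.gM
  have ρ1 : 24 / 25 ≤ √(∑ i, pd i d.l (mid z) ^ 2) := Real.le_sqrt_of_sq_le L.gM
  have hρ0 : 0 < √(∑ i, pd i d.l (mid z) ^ 2) := lt_of_lt_of_le (by norm_num) ρ1
  have h4 := h3.sqrt S0
  have h5 := h4.inv hρ0
  set ρ := √(∑ i, pd i d.l (mid z) ^ 2) with hρ
  have i1 : 1 / (2 * ρ) ≤ 1 := by
    rw [div_le_one (by positivity)]; linarith
  have ρ2 : (24 / 25) ^ 2 ≤ ρ ^ 2 := pow_le_pow_left₀ (by norm_num) ρ1 2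
  have ρ3 : (24 / 25) ^ 3 ≤ ρ ^ 3 := pow_le_pow_left₀ (by norm_num) ρ1 3
  have i2 : 1 / (4 * ρ ^ 3) ≤ 1 := by
    rw [div_le_one (by positivity)]; linarith
  have i3 : (ρ ^ 2)⁻¹ ≤ 2 := by
    rw [inv_le_comm₀ (by positivity) (by norm_num)]; linarith
  have i4 : (ρ ^ 3)⁻¹ ≤ 3 / 2 := by
    rw [inv_le_comm₀ (by positivity) (by norm_num)]; linarith
  have i5 : |ρ⁻¹| ≤ 2 := by
    rw [abs_of_pos (inv_pos.2 hρ0), inv_le_comm₀ hρ0 (by norm_num)]; linarith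
  set B₁ := (n : ℝ) * (4 * c * s) with hB₁
  set B₂ := (n : ℝ) * ((4 * c + 2 * c ^ 2) * s) with hB₂
  have B10 : 0 ≤ B₁ := by positivity
  have B20 : 0 ≤ B₂ := by positivity
  have m1 : 1 / (2 * ρ) * B₁ ≤ B₁ := mul_le_of_le_one_left B10 i1
  have m10 : 0 ≤ 1 / (2 * ρ) * B₁ := by positivity
  have m2 : 1 / (4 * ρ ^ 3) * B₁ ^ 2 + 1 / (2 * ρ) * B₂ ≤ B₁ ^ 2 + B₂ :=
    add_le_add (mul_le_of_le_one_left (sq_nonneg _) i2) (mul_le_of_le_one_left B20 i1)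
  have h6 : J2 (dr n) (fun w : VV n => (√(∑ i, pd i d.l (mid w) ^ 2))⁻¹) (2 * B₁)
      (5 * B₁ ^ 2 + 2 * B₂) z := by
    refine h5.mono ?_ ?_
    · exact mul_le_mul i3 m1 m10 zero_le_two
    · have k1 : (1 / (2 * ρ) * B₁) ^ 2 ≤ B₁ ^ 2 := pow_le_pow_left₀ m10 m1 2
      have k2 : 2 * (ρ ^ 3)⁻¹ * (1 / (2 * ρ) * B₁) ^ 2 ≤ 3 * B₁ ^ 2 :=
        mul_le_mul (by linarith) k1 (by positivity) (by norm_num)
      have k3 : (ρ ^ 2)⁻¹ * (1 / (4 * ρ ^ 3) * B₁ ^ 2 + 1 / (2 * ρ) * B₂) ≤ 2 * (B₁ ^ 2 + B₂) :=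
        mul_le_mul i3 m2 (by positivity) zero_le_two
      linarith
  have h7 := h6.mul (hp l) i5 (hv l)
  have hB1s : B₁ ^ 2 ≤ (4 * n * c) ^ 2 * s := by
    have e : B₁ ^ 2 = (4 * n * c) ^ 2 * (s * s) := by rw [hB₁]; ring
    rw [e]
    exact mul_le_mul_of_nonneg_left (by nlinarith) (sq_nonneg _)
  have hn0 : (0 : ℝ) ≤ n := Nat.cast_nonneg n
  have hss : n * c * c * (s * s) ≤ n * c * c * s :=
    mul_le_mul_of_nonneg_left (by nlinarith) (by positivity)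
  have p1 : 0 ≤ (4 * n * c) ^ 2 * s := by positivity
  have p2 : 0 ≤ n * c * c * s := by positivity
  have p3 : 0 ≤ n * c * s := by positivity
  refine (h7.mono (c₁ := kE n c * s) (c₂ := kE n c * s) ?_ ?_)
  · unfold kE
    rw [hB₁]
    nlinarith
  · unfold kE
    have e1 : (5 * B₁ ^ 2 + 2 * B₂) * 2 + 2 * (2 * B₁ * (c * s)) + 2 * (c * s) =
      10 * B₁ ^ 2 + 4 * B₂ + 16 * (n * c * c * (s * s)) + 2 * (c * s) := by
      rw [hB₁]; ring
    rw [e1]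
    rw [hB₂]
    nlinarith

end Vale.Agent.P088.R2.H808.A
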